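import Vale.Agent.P143.Main

/-!
P143: the free uniform spanning forest is a factor of i.i.d. labels.
-/

theorem Vale.Agent.Results.P143.FUSFFactor.result : Vale.Agent.P143.FUSFIsFactorOfIID :=
  Vale.Agent.P143.fusfIsFactorOfIID
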